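import Mathlib

set_option autoImplicit false
open Finset
open scoped Classical

namespace Crest.Agent.R57

variable {V : Type*} [Fintype V]

/-- closed out-neighbourhood of a set -/
noncomputable def RS (A : V → V → Prop) (S : Finset V) : Finset V :=
  univ.filter (fun z => ∃ y ∈ S, y = z ∨ A y z)

theorem mem_RS {A : V → V → Prop} {S : Finset V} {z : V} :
    z ∈ RS A S ↔ ∃ y ∈ S, y = z ∨ A y z := by
  simp [RS]

theorem subset_RS (A : V → V → Prop) (S : Finset V) : S ⊆ RS A S :=
  fun z hz => mem_RS.2 ⟨z, hz, Or.inl rfl⟩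

theorem RS_mono (A : V → V → Prop) {S T : Finset V} (h : S ⊆ T) : RS A S ⊆ RS A T := by
  intro z hz
  obtain ⟨y, hy, h'⟩ := mem_RS.1 hz
  exact mem_RS.2 ⟨y, h hy, h'⟩

theorem RS_union (A : V → V → Prop) (S T : Finset V) : RS A (S ∪ T) = RS A S ∪ RS A T := by
  ext z
  simp only [mem_RS, mem_union]
  constructor
  · rintro ⟨y, hy | hy, h⟩
    · exact Or.inl ⟨y, hy, h⟩
    · exact Or.inr ⟨y, hy, h⟩
  · rintro (⟨y, hy, h⟩ | ⟨y, hy, h⟩)
    · exact ⟨y, Or.inl hy, h⟩
    · exact ⟨y, Or.inr hy, h⟩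

/-- the boundary size -/
noncomputable def f (A : V → V → Prop) (S : Finset V) : ℤ := ((RS A S).card : ℤ) - S.card

theorem f_submod (A : V → V → Prop) (S T : Finset V) :
    f A (S ∪ T) + f A (S ∩ T) ≤ f A S + f A T := by
  have h1 := card_union_add_card_inter S T
  have h2 := card_union_add_card_inter (RS A S) (RS A T)
  have h3 : (RS A (S ∩ T)).card ≤ (RS A S ∩ RS A T).card :=
    card_le_card (subset_inter (RS_mono A inter_subset_left) (RS_mono A inter_subset_right))
  unfold f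
  rw [RS_union]
  omega

noncomputable def N1 (A : V → V → Prop) (v : V) : Finset V := univ.filter (fun u => A v u)

noncomputable def N2 (A : V → V → Prop) (v : V) : Finset V :=
  univ.filter (fun w => w ≠ v ∧ ¬ A v w ∧ ∃ u, A v u ∧ A u w)

def Bad (A : V → V → Prop) : Prop := ∀ v, (N2 A v).card < (N1 A v).card

/-- leak of `K` relative to `S` -/
noncomputable def leak (A : V → V → Prop) (S K : Finset V) : Finset V :=
  univ.filter (fun w => w ∉ K ∧ ∃ u ∈ K, u ∉ S ∧ A u w)

theorem grow {A : V → V → Prop} (hbad : Bad A)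
    (hmin : ∀ A' : V → V → Prop, (∀ u v, A' u v → A u v) → (∃ u v, A u v ∧ ¬ A' u v) → ¬ Bad A')
    {S K : Finset V} (hSK : S ⊆ K) (hK : K ⊆ RS A S) (hne : K ≠ RS A S) :
    ∃ K', S ⊆ K' ∧ K' ⊆ RS A S ∧
      ((leak A S K').card : ℤ) - K'.card < ((leak A S K).card : ℤ) - K.card := by
  set A' : V → V → Prop := fun u v => A u v ∧ (u ∈ S → v ∈ K) with hA'
  have hnb : ¬ Bad A' := by
    refine hmin A' (fun u v h => h.1) ?_
    obtain ⟨z, hz, hzK⟩ := exists_of_ssubset (ssubset_of_subset_of_ne hK hne)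
    obtain ⟨y, hy, h | h⟩ := mem_RS.1 hz
    · exact absurd (hSK (h ▸ hy)) hzK
    · exact ⟨y, z, h, fun h' => hzK (h'.2 hy)⟩
  obtain ⟨a, ha⟩ : ∃ a, (N1 A' a).card ≤ (N2 A' a).card := by
    by_contra h
    push Not at h
    exact hnb h
  have hb := hbad a
  have haS : a ∈ S := by
    by_contra haS
    have e1 : N1 A' a = N1 A a := by
      ext u; simp [N1, hA', haS]
    have e2 : N2 A' a ⊆ N2 A a := by
      intro w hw
      simp only [N2, hA', mem_filter, mem_univ, true_and] at hw ⊢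
      obtain ⟨h1, h2, u, h3, h4⟩ := hw
      exact ⟨h1, fun h => h2 ⟨h, fun h' => absurd h' haS⟩, u, h3.1, h4.1⟩
    have := card_le_card e2
    rw [e1] at ha
    omega
  set T : Finset V := N1 A a \ K with hT
  set W := leak A S K with hW
  set E : Finset V := univ.filter (fun w => w ∉ K ∧ w ∉ W ∧ w ∉ T ∧ ∃ t ∈ T, A t w) with hE
  have c1 : (N1 A a).card = (N1 A' a).card + T.card := by
    have : N1 A' a = N1 A a ∩ K := by
      ext u; simp [N1, hA', haS]
    rw [this, hT, card_inter_add_card_sdiff]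
  have c2 : (N2 A' a \ T).card + E.card ≤ (N2 A a).card := by
    rw [← card_union_of_disjoint]
    · apply card_le_card
      intro w hw
      rcases mem_union.1 hw with hw | hw
      · simp only [N2, hA', hT, N1, mem_sdiff, mem_filter, mem_univ, true_and] at hw ⊢
        obtain ⟨⟨h1, h2, u, h3, h4⟩, h5⟩ := hw
        refine ⟨h1, fun h => ?_, u, h3.1, h4.1⟩
        by_cases hwK : w ∈ K
        · exact h2 ⟨h, fun _ => hwK⟩
        · exact h5 ⟨h, hwK⟩
      · simp only [N2, hE, hT, N1, mem_sdiff, mem_filter, mem_univ, true_and] at hw ⊢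
        obtain ⟨h1, _, h3, t, h4, h5⟩ := hw
        exact ⟨fun h => h1 (h ▸ hSK haS), fun h => h3 ⟨h, h1⟩, t, h4.1, h5⟩
    · rw [disjoint_left]
      intro w hw hw'
      simp only [N2, hA', hE, hW, leak, mem_sdiff, mem_filter, mem_univ, true_and] at hw hw'
      obtain ⟨⟨_, _, u, h3, h4⟩, _⟩ := hw
      obtain ⟨h6, h7, _⟩ := hw'
      exact h7 ⟨h6, u, h3.2 haS, fun hu => h6 (h4.2 hu), h4.1⟩
  have c3 : (N2 A' a).card ≤ (N2 A' a \ T).card + (W ∩ T).card := by
    rw [← card_sdiff_add_card_inter (N2 A' a) T]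
    refine Nat.add_le_add_left (card_le_card ?_) _
    intro w hw
    simp only [N2, hA', hW, leak, hT, mem_inter, mem_sdiff, mem_filter, mem_univ, true_and] at hw ⊢
    obtain ⟨⟨_, _, u, h3, h4⟩, h5, h6⟩ := hw
    exact ⟨⟨h6, u, h3.2 haS, fun hu => h6 (h4.2 hu), h4.1⟩, h5, h6⟩
  have c4 : (leak A S (K ∪ T)).card ≤ (W \ T).card + E.card := by
    refine le_trans (card_le_card ?_) (card_union_le _ _)
    intro w hw
    simp only [leak, mem_filter, mem_univ, true_and, mem_union, not_or] at hw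
    obtain ⟨⟨h1, h2⟩, u, h3, h4, h5⟩ := hw
    by_cases hwW : w ∈ W
    · exact mem_union_left _ (mem_sdiff.2 ⟨hwW, h2⟩)
    · refine mem_union_right _ ?_
      rcases h3 with h3 | h3
      · exact absurd (by simp only [hW, leak, mem_filter, mem_univ, true_and]; exact ⟨h1, u, h3, h4, h5⟩) hwW
      · simp only [hE, mem_filter, mem_univ, true_and]
        exact ⟨h1, hwW, h2, u, h3, h5⟩
  have c5 := card_sdiff_add_card_inter W T
  have c6 : (K ∪ T).card = K.card + T.card := card_union_of_disjoint (by rw [hT]; exact disjoint_sdiff)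
  refine ⟨K ∪ T, hSK.trans subset_union_left, union_subset hK ?_, ?_⟩
  · intro t ht
    simp only [hT, N1, mem_sdiff, mem_filter, mem_univ, true_and] at ht
    exact mem_RS.2 ⟨a, haS, Or.inr ht.1⟩
  · omega

/-- Lemma D -/
theorem lemmaD {A : V → V → Prop} (hbad : Bad A)
    (hmin : ∀ A' : V → V → Prop, (∀ u v, A' u v → A u v) → (∃ u v, A u v ∧ ¬ A' u v) → ¬ Bad A')
    {S : Finset V} (hne : S ≠ RS A S) : f A (RS A S) < f A S := by
  obtain ⟨K, hK, hKmin⟩ := exists_min_image
    (univ.filter (fun K : Finset V => S ⊆ K ∧ K ⊆ RS A S))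
    (fun K => ((leak A S K).card : ℤ) - K.card) ⟨S, by simp [subset_RS]⟩
  simp only [mem_filter, mem_univ, true_and] at hK hKmin
  have hKe : K = RS A S := by
    by_contra h
    obtain ⟨K', h1, h2, h3⟩ := grow hbad hmin hK.1 hK.2 h
    have := hKmin K' ⟨h1, h2⟩
    omega
  obtain ⟨K', h1, h2, h3⟩ := grow hbad hmin (Subset.refl S) (subset_RS A S) hne
  have h4 := hKmin K' ⟨h1, h2⟩
  have h5 : leak A S S = ∅ := by
    ext w; simp only [leak, mem_filter, mem_univ, true_and, notMem_empty, iff_false]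
    rintro ⟨_, u, h, h', _⟩; exact h' h
  have h6 : (RS A (RS A S)).card ≤ (RS A S).card + (leak A S (RS A S)).card := by
    refine le_trans (card_le_card ?_) (card_union_le _ _)
    intro w hw
    by_cases hw' : w ∈ RS A S
    · exact mem_union_left _ hw'
    · refine mem_union_right _ ?_
      obtain ⟨u, hu, h | h⟩ := mem_RS.1 hw
      · exact absurd (h ▸ hu) hw'
      · simp only [leak, mem_filter, mem_univ, true_and]
        exact ⟨hw', u, hu, fun huS => hw' (mem_RS.2 ⟨u, huS, Or.inr h⟩), h⟩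
  rw [h5] at h3
  rw [hKe] at h4
  simp only [card_empty] at h3
  unfold f
  omega

theorem lemmaD_le {A : V → V → Prop} (hbad : Bad A)
    (hmin : ∀ A' : V → V → Prop, (∀ u v, A' u v → A u v) → (∃ u v, A u v ∧ ¬ A' u v) → ¬ Bad A')
    (S : Finset V) : f A (RS A S) ≤ f A S := by
  by_cases h : S = RS A S
  · rw [← h]
  · exact (lemmaD hbad hmin h).le

end Crest.Agent.R57
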