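import Mathlib

set_option autoImplicit false
open Finset
open scoped Classical

namespace Crest.Agent.R57

variable {V : Type*} [Fintype V]

/-- A generic real matrix supported on `R` is injective on every row family with Hall's condition. -/
theorem exists_generic {ι : Type*} [Fintype ι] (R : V → V → Prop) (Xf Zf : ι → Finset V)
    (hall : ∀ i, ∀ X' ⊆ Xf i, X'.card ≤ ((Zf i).filter (fun z => ∃ y ∈ X', R y z)).card) :
    ∃ α : V → V → ℝ, (∀ y z, α y z ≠ 0 → R y z) ∧
      ∀ i, ∀ u : V → ℝ, (∀ y, y ∉ Xf i → u y = 0) → (∀ z ∈ Zf i, ∑ y, u y * α y z = 0) → u = 0 := by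
  have hσ : ∀ i, ∃ σ : {y // y ∈ Xf i} → V, Function.Injective σ ∧
      ∀ y, σ y ∈ (Zf i).filter (fun z => R y.1 z) := by
    intro i
    refine (all_card_le_biUnion_card_iff_exists_injective
      (fun y : {y // y ∈ Xf i} => (Zf i).filter (fun z => R y.1 z))).1 ?_
    intro s
    have h := hall i (s.map (Function.Embedding.subtype _)) (by
      intro y hy
      obtain ⟨y', _, rfl⟩ := mem_map.1 hy
      exact y'.2)
    rw [card_map] at h
    refine h.trans (card_le_card ?_)
    intro z hz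
    obtain ⟨hz1, y, hy, hR⟩ := mem_filter.1 hz
    obtain ⟨y', hy', rfl⟩ := mem_map.1 hy
    exact mem_biUnion.2 ⟨y', hy', mem_filter.2 ⟨hz1, hR⟩⟩
  choose σ hσi hσm using hσ
  let B : ∀ i, Matrix {y // y ∈ Xf i} {y // y ∈ Xf i} (MvPolynomial (V × V) ℝ) :=
    fun i y y' => if R y.1 (σ i y') then MvPolynomial.X (y.1, σ i y') else 0
  have hB : ∀ i (t : V × V → ℝ), MvPolynomial.eval t (B i).det =
      (Matrix.of fun y y' : {y // y ∈ Xf i} =>
        if R y.1 (σ i y') then t (y.1, σ i y') else 0).det := by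
    intro i t
    rw [RingHom.map_det]
    congr 1
    ext y y'
    simp only [B, RingHom.mapMatrix_apply, Matrix.map_apply, Matrix.of_apply]
    split_ifs <;> simp
  have hne : ∀ i, (B i).det ≠ 0 := by
    intro i h0
    have h := hB i (fun c => if ∃ h : c.1 ∈ Xf i, c.2 = σ i ⟨c.1, h⟩ then 1 else 0)
    rw [h0, map_zero] at h
    have : (Matrix.of fun y y' : {y // y ∈ Xf i} =>
        if R y.1 (σ i y') then
          (if ∃ h : y.1 ∈ Xf i, σ i y' = σ i ⟨y.1, h⟩ then (1 : ℝ) else 0) else 0) = 1 := by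
      ext y y'
      by_cases hy : y = y'
      · subst hy
        have := (mem_filter.1 (hσm i y)).2
        simp [this]
      · have : ¬ ∃ h : y.1 ∈ Xf i, σ i y' = σ i ⟨y.1, h⟩ := by
          rintro ⟨h, h'⟩
          exact hy (hσi i h').symm
        rw [Matrix.of_apply, if_neg this, Matrix.one_apply_ne hy, ite_self]
    rw [this] at h
    simp at h
  have hprod : (∏ i, (B i).det) ≠ 0 := prod_ne_zero_iff.2 (fun i _ => hne i)
  obtain ⟨t, ht⟩ : ∃ t : V × V → ℝ, MvPolynomial.eval t (∏ i, (B i).det) ≠ 0 := by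
    by_contra h
    push Not at h
    exact hprod (MvPolynomial.funext (by simpa using h))
  refine ⟨fun y z => if R y z then t (y, z) else 0, ?_, ?_⟩
  · intro y z h
    by_contra h'
    simp [h'] at h
  · intro i u hu hz
    rw [map_prod] at ht
    have hd := prod_ne_zero_iff.1 ht i (mem_univ i)
    rw [hB] at hd
    have hv : (fun y : {y // y ∈ Xf i} => u y.1) = 0 := by
      apply Matrix.eq_zero_of_vecMul_eq_zero hd
      ext y'
      have h1 := hz (σ i y') (mem_filter.1 (hσm i y')).1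
      simp only [Matrix.vecMul, dotProduct, Matrix.of_apply, Pi.zero_apply]
      refine Eq.trans ?_ h1
      rw [sum_coe_sort (Xf i) (fun y => u y * if R y (σ i y') then t (y, σ i y') else 0)]
      refine sum_subset (subset_univ _) ?_
      intro y _ hy
      rw [hu y hy, zero_mul]
    ext y
    by_cases hy : y ∈ Xf i
    · exact congrFun hv ⟨y, hy⟩
    · exact hu y hy

/-- The inner product trick. -/
theorem corner_card (X Y N N0 : Finset (V × V)) (α β : V → V → ℝ)
    (hα : ∀ u : V × V → ℝ, (∀ c, c ∉ X → u c = 0) →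
      (∀ c ∈ N, ∑ y, u (c.1, y) * α y c.2 = 0) → u = 0)
    (hβ : ∀ v : V × V → ℝ, (∀ c, c ∉ Y → v c = 0) →
      (∀ c ∈ N, ∑ x, v (x, c.2) * β x c.1 = 0) → v = 0)
    (hN : ∀ x x' y z, (x', y) ∈ X → (x, z) ∈ Y → α y z ≠ 0 → β x x' ≠ 0 →
      (x', z) ∈ N ∧ (x, y) ∈ N0) :
    X.card + Y.card ≤ N.card + N0.card := by
  let ext : ∀ S : Finset (V × V), ({c // c ∈ S} → ℝ) →ₗ[ℝ] (V × V → ℝ) := fun S =>
    LinearMap.pi (fun c => if h : c ∈ S then LinearMap.proj ⟨c, h⟩ else 0)
  have ext_mem : ∀ S u (c : {c // c ∈ S}), ext S u c.1 = u c := by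
    intro S u c; simp [ext, c.2]
  have ext_not : ∀ S u c, c ∉ S → ext S u c = 0 := by
    intro S u c hc; simp [ext, hc]
  let res : ∀ S : Finset (V × V), (V × V → ℝ) →ₗ[ℝ] ({c // c ∈ S} → ℝ) := fun S =>
    LinearMap.funLeft ℝ ℝ Subtype.val
  let ρ : (V × V → ℝ) →ₗ[ℝ] (V × V → ℝ) :=
    LinearMap.pi (fun c => ∑ y, (α y c.2) • LinearMap.proj (c.1, y))
  let γ : (V × V → ℝ) →ₗ[ℝ] (V × V → ℝ) :=
    LinearMap.pi (fun c => ∑ x, (β x c.1) • LinearMap.proj (x, c.2))
  let δ : (V × V → ℝ) →ₗ[ℝ] (V × V → ℝ) :=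
    LinearMap.pi (fun c => ∑ x', (β c.1 x') • LinearMap.proj (x', c.2))
  have hρ : ∀ u c, ρ u c = ∑ y, u (c.1, y) * α y c.2 := by
    intro u c; simp [ρ, mul_comm]
  have hγ : ∀ u c, γ u c = ∑ x, u (x, c.2) * β x c.1 := by
    intro u c; simp [γ, mul_comm]
  have hδ : ∀ u c, δ u c = ∑ x', u (x', c.2) * β c.1 x' := by
    intro u c; simp [δ, mul_comm]
  let T : (({c // c ∈ X} → ℝ) × ({c // c ∈ Y} → ℝ)) →ₗ[ℝ]
      (({c // c ∈ N} → ℝ) × ({c // c ∈ N0} → ℝ)) :=
    LinearMap.prod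
      (res N ∘ₗ (ρ ∘ₗ ext X ∘ₗ LinearMap.fst ℝ _ _ - γ ∘ₗ ext Y ∘ₗ LinearMap.snd ℝ _ _))
      (res N0 ∘ₗ δ ∘ₗ ext X ∘ₗ LinearMap.fst ℝ _ _)
  have hT : Function.Injective T := by
    rw [injective_iff_map_eq_zero]
    rintro ⟨u0, v0⟩ h
    set u := ext X u0 with hu
    set v := ext Y v0 with hv
    have h1 : ∀ c ∈ N, ρ u c = γ v c := by
      intro c hc
      have := congrFun (congrArg Prod.fst h) ⟨c, hc⟩
      exact sub_eq_zero.1 this
    have h2 : ∀ c ∈ N0, δ u c = 0 := by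
      intro c hc
      exact congrFun (congrArg Prod.snd h) ⟨c, hc⟩
    have hu0 : ∀ c, c ∉ X → u c = 0 := fun c hc => ext_not X u0 c hc
    have hv0 : ∀ c, c ∉ Y → v c = 0 := fun c hc => ext_not Y v0 c hc
    have key : ∑ c : V × V, ρ u c * γ v c =
        ∑ m : V × V, δ u m * ∑ z, v (m.1, z) * α m.2 z := by
      simp only [hρ, hγ, hδ, Fintype.sum_prod_type, sum_mul_sum]
      have e1 : ∀ x' : V, ∑ z, ∑ y, ∑ x, u (x', y) * α y z * (v (x, z) * β x x') =
          ∑ x, ∑ y, ∑ z, u (x', y) * β x x' * (v (x, z) * α y z) := by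
        intro x'
        rw [sum_comm]
        simp_rw [sum_comm (s := (univ : Finset V)) (t := (univ : Finset V))
          (f := fun z x => u (x', _) * α _ z * (v (x, z) * β x x'))]
        rw [sum_comm]
        refine sum_congr rfl fun x _ => sum_congr rfl fun y _ => sum_congr rfl fun z _ => by ring
      simp_rw [e1]
      rw [sum_comm]
      refine sum_congr rfl fun x _ => ?_
      rw [sum_comm]
    have r0 : ∑ m : V × V, δ u m * ∑ z, v (m.1, z) * α m.2 z = 0 := by
      refine sum_eq_zero fun m _ => ?_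
      by_cases hm : m ∈ N0
      · rw [h2 m hm, zero_mul]
      · by_contra hne
        obtain ⟨ha, hb⟩ := mul_ne_zero_iff.1 hne
        rw [hδ] at ha
        obtain ⟨x', _, hx'⟩ := exists_ne_zero_of_sum_ne_zero ha
        obtain ⟨z, _, hz⟩ := exists_ne_zero_of_sum_ne_zero hb
        obtain ⟨a1, a2⟩ := mul_ne_zero_iff.1 hx'
        obtain ⟨b1, b2⟩ := mul_ne_zero_iff.1 hz
        exact hm (hN m.1 x' m.2 z (by_contra fun h => a1 (hu0 _ h))
          (by_contra fun h => b1 (hv0 _ h)) b2 a2).2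
    have l0 : ∑ c : V × V, ρ u c * γ v c = ∑ c ∈ N, ρ u c * ρ u c := by
      symm
      rw [← sum_subset (subset_univ N)]
      · exact sum_congr rfl fun c hc => by rw [h1 c hc]
      · intro c _ hc
        by_contra hne
        obtain ⟨ha, hb⟩ := mul_ne_zero_iff.1 hne
        rw [hρ] at ha
        rw [hγ] at hb
        obtain ⟨y, _, hy⟩ := exists_ne_zero_of_sum_ne_zero ha
        obtain ⟨x, _, hx⟩ := exists_ne_zero_of_sum_ne_zero hb
        obtain ⟨a1, a2⟩ := mul_ne_zero_iff.1 hy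
        obtain ⟨b1, b2⟩ := mul_ne_zero_iff.1 hx
        exact hc (hN x c.1 y c.2 (by_contra fun h => a1 (hu0 _ h))
          (by_contra fun h => b1 (hv0 _ h)) a2 b2).1
    have z0 : ∀ c ∈ N, ρ u c = 0 := by
      have : ∑ c ∈ N, ρ u c * ρ u c = 0 := by rw [← l0, key, r0]
      intro c hc
      exact mul_self_eq_zero.1
        ((sum_eq_zero_iff_of_nonneg (fun c _ => mul_self_nonneg _)).1 this c hc)
    have hu1 : u = 0 := hα u hu0 (fun c hc => by rw [← hρ]; exact z0 c hc)
    have hv1 : v = 0 := hβ v hv0 (fun c hc => by rw [← hγ, ← h1 c hc]; exact z0 c hc)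
    ext c
    · have := ext_mem X u0 c
      rw [← hu, hu1] at this
      simpa using this.symm
    · have := ext_mem Y v0 c
      rw [← hv, hv1] at this
      simpa using this.symm
  have := LinearMap.finrank_le_finrank_of_injective hT
  simpa [Module.finrank_prod] using this

end Crest.Agent.R57
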