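import Crest.Agent.R57.Basic
import Crest.Agent.R57.Generic

set_option autoImplicit false
open Finset
open scoped Classical

namespace Crest.Agent.R57

variable {V : Type*} [Fintype V]

theorem exists_lm (A : V → V → Prop) (x : V) (Θ : Finset V) :
    ∃ S : Finset V, x ∈ S ∧ S ⊆ insert x Θ ∧
      (∀ T : Finset V, x ∈ T → T ⊆ insert x Θ → f A S ≤ f A T) ∧
      (∀ T : Finset V, x ∈ T → T ⊆ insert x Θ → f A T ≤ f A S → S.card ≤ T.card) := by
  obtain ⟨S0, h0, hm0⟩ := exists_min_image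
    (univ.filter (fun T : Finset V => x ∈ T ∧ T ⊆ insert x Θ)) (f A) ⟨{x}, by simp⟩
  simp only [mem_filter, mem_univ, true_and] at h0 hm0
  obtain ⟨S, h, hm⟩ := exists_min_image
    (univ.filter (fun T : Finset V => x ∈ T ∧ T ⊆ insert x Θ ∧ f A T ≤ f A S0)) card
    ⟨S0, by simp [h0.1, h0.2]⟩
  simp only [mem_filter, mem_univ, true_and] at h hm
  exact ⟨S, h.1, h.2.1, fun T h1 h2 => h.2.2.trans (hm0 T ⟨h1, h2⟩),
    fun T h1 h2 h3 => hm T ⟨h1, h2, h3.trans h.2.2⟩⟩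

/-- least minimiser of the boundary function between `{x}` and `insert x Θ` -/
noncomputable def lm (A : V → V → Prop) (x : V) (Θ : Finset V) : Finset V :=
  Classical.choose (exists_lm A x Θ)

theorem mem_lm (A : V → V → Prop) (x : V) (Θ : Finset V) : x ∈ lm A x Θ :=
  (Classical.choose_spec (exists_lm A x Θ)).1

theorem lm_subset (A : V → V → Prop) (x : V) (Θ : Finset V) : lm A x Θ ⊆ insert x Θ :=
  (Classical.choose_spec (exists_lm A x Θ)).2.1

theorem lm_min (A : V → V → Prop) (x : V) (Θ : Finset V) {T : Finset V} (h1 : x ∈ T)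
    (h2 : T ⊆ insert x Θ) : f A (lm A x Θ) ≤ f A T :=
  (Classical.choose_spec (exists_lm A x Θ)).2.2.1 T h1 h2

theorem lm_mono (A : V → V → Prop) (x : V) {Θ Θ' : Finset V} (h : Θ ⊆ Θ') :
    lm A x Θ ⊆ lm A x Θ' := by
  have h1 := f_submod A (lm A x Θ) (lm A x Θ')
  have h2 : f A (lm A x Θ') ≤ f A (lm A x Θ ∪ lm A x Θ') :=
    lm_min A x Θ' (mem_union_left _ (mem_lm A x Θ))
      (union_subset ((lm_subset A x Θ).trans (insert_subset_insert x h)) (lm_subset A x Θ'))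
  have h3 : (lm A x Θ).card ≤ (lm A x Θ ∩ lm A x Θ').card :=
    (Classical.choose_spec (exists_lm A x Θ)).2.2.2 _
      (mem_inter.2 ⟨mem_lm A x Θ, mem_lm A x Θ'⟩)
      (inter_subset_left.trans (lm_subset A x Θ)) (by change _ ≤ f A (lm A x Θ); omega)
  have h4 := eq_of_subset_of_card_le (inter_subset_left (s₁ := lm A x Θ) (s₂ := lm A x Θ')) h3
  rw [← h4]
  exact inter_subset_right

noncomputable def KK (A : V → V → Prop) (P : V → Finset V) (x : V) : Finset V :=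
  RS A (P x) ∪ (RS A {x}).biUnion P

theorem mem_KK {A : V → V → Prop} {P : V → Finset V} {x y : V} :
    y ∈ KK A P x ↔ (∃ q ∈ P x, q = y ∨ A q y) ∨ ∃ x', (x = x' ∨ A x x') ∧ y ∈ P x' := by
  simp only [KK, mem_union, mem_biUnion, mem_RS, mem_singleton, exists_eq_left]

noncomputable def Phi (A : V → V → Prop) (P : V → Finset V) (y : V) : Finset V :=
  lm A y (univ.filter (fun x => y ∉ RS A (KK A P x)))

theorem KK_mono (A : V → V → Prop) {P P' : V → Finset V} (h : P ≤ P') (x : V) :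
    KK A P x ⊆ KK A P' x := by
  intro y hy
  rcases mem_KK.1 hy with ⟨q, hq, h'⟩ | ⟨x', h1, h2⟩
  · exact mem_KK.2 (Or.inl ⟨q, h x hq, h'⟩)
  · exact mem_KK.2 (Or.inr ⟨x', h1, h x' h2⟩)

theorem Phi_anti (A : V → V → Prop) {P P' : V → Finset V} (h : P ≤ P') : Phi A P' ≤ Phi A P := by
  intro y
  refine lm_mono A y ?_
  intro x hx
  simp only [mem_filter, mem_univ, true_and] at hx ⊢
  exact fun h' => hx (RS_mono A (KK_mono A h x) h')

theorem exists_fixed (A : V → V → Prop) :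
    ∃ P Q : V → Finset V, P = Phi A Q ∧ Q = Phi A P := by
  obtain ⟨Q, hQ, hmax⟩ := (wellFounded_gt (α := V → Finset V)).has_min
    {Q | Q ≤ Phi A (Phi A Q)} ⟨fun _ => ∅, fun _ => empty_subset _⟩
  have h1 : Phi A (Phi A Q) ≤ Phi A (Phi A (Phi A (Phi A Q))) :=
    Phi_anti A (Phi_anti A hQ)
  exact ⟨Phi A Q, Q, rfl, eq_of_le_of_not_lt hQ (hmax _ h1)⟩

section Fixed

variable {A : V → V → Prop} {P Q : V → Finset V}

theorem self_mem (hP : P = Phi A Q) (x : V) : x ∈ P x := by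
  rw [hP]; exact mem_lm A x _

theorem off_diag (hP : P = Phi A Q) {x y : V} (h : y ∈ P x) (h' : x ∈ RS A (KK A Q y)) :
    y = x := by
  rw [hP] at h
  rcases mem_insert.1 (lm_subset A x _ h) with h | h
  · exact h
  · exact absurd h' (mem_filter.1 h).2

theorem P_min (hP : P = Phi A Q) (x : V) {T : Finset V} (h1 : x ∈ T)
    (h2 : ∀ y ∈ T, y ∈ P x ∨ x ∉ RS A (KK A Q y)) : f A (P x) ≤ f A T := by
  have e : P x = lm A x (univ.filter (fun y => x ∉ RS A (KK A Q y))) := by rw [hP]; rfl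
  rw [e]
  refine lm_min A x _ h1 fun y hy => ?_
  rcases h2 y hy with h | h
  · rw [e] at h; exact lm_subset A x _ h
  · exact mem_insert_of_mem (mem_filter.2 ⟨mem_univ _, h⟩)

theorem f_KK_le (hP : P = Phi A Q) (x : V) : f A (KK A P x) ≤ f A (RS A (P x)) := by
  have key : ∀ s : Finset V, s ⊆ RS A (P x) → f A (RS A (P x) ∪ s.biUnion P) ≤ f A (RS A (P x)) := by
    intro s
    induction s using Finset.induction_on with
    | empty => intro _; simp
    | insert z s _ ih =>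
      intro hs
      have h1 := ih ((subset_insert z s).trans hs)
      have h2 := f_submod A (RS A (P x) ∪ s.biUnion P) (P z)
      have h3 : f A (P z) ≤ f A ((RS A (P x) ∪ s.biUnion P) ∩ P z) :=
        P_min hP z (mem_inter.2 ⟨mem_union_left _ (hs (mem_insert_self z s)), self_mem hP z⟩)
          (fun y hy => Or.inl (mem_inter.1 hy).2)
      have e : RS A (P x) ∪ (insert z s).biUnion P = (RS A (P x) ∪ s.biUnion P) ∪ P z := by
        rw [biUnion_insert, union_comm (P z), union_assoc]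
      rw [e]
      omega
  exact key _ (RS_mono A (singleton_subset_iff.2 (self_mem hP x)))

theorem KK_inter (hanti : ∀ u v, A u v → ¬ A v u) (hP : P = Phi A Q) (hQ : Q = Phi A P)
    {x y : V} (h1 : y ∈ KK A P x) (h2 : x ∈ KK A Q y) : x = y := by
  have fin : (x = y ∨ A x y) → (y = x ∨ A y x) → x = y := by
    rintro (h | h) (h' | h')
    · exact h
    · exact h
    · exact h'.symm
    · exact absurd h' (hanti _ _ h)
  rcases mem_KK.1 h1 with ⟨q, hq, hqy⟩ | ⟨x', hxx', hy⟩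
  · rcases mem_KK.1 h2 with ⟨p, hp, hpx⟩ | ⟨z, hyz, hx⟩
    · have e1 : p = y := off_diag hQ hp (mem_RS.2 ⟨q, mem_KK.2 (Or.inr ⟨x, hpx, hq⟩), hqy⟩)
      have e2 : q = x := off_diag hP hq (mem_RS.2 ⟨p, mem_KK.2 (Or.inr ⟨y, hqy, hp⟩), hpx⟩)
      exact fin (e2 ▸ hqy) (e1 ▸ hpx)
    · have e1 : x = z := off_diag hQ hx (mem_RS.2 ⟨y, h1, hyz⟩)
      have hyx : y = x ∨ A y x := e1 ▸ hyz
      have e2 : q = x := off_diag hP hq
        (mem_RS.2 ⟨y, mem_KK.2 (Or.inr ⟨y, hqy, self_mem hQ y⟩), hyx⟩)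
      exact fin (e2 ▸ hqy) hyx
  · have e1 : y = x' := off_diag hP hy (mem_RS.2 ⟨x, h2, hxx'⟩)
    have hxy : x = y ∨ A x y := e1 ▸ hxx'
    rcases mem_KK.1 h2 with ⟨p, hp, hpx⟩ | ⟨z, hyz, hx⟩
    · have e2 : p = y := off_diag hQ hp
        (mem_RS.2 ⟨x, mem_KK.2 (Or.inr ⟨x, hpx, self_mem hP x⟩), hxy⟩)
      exact fin hxy (e2 ▸ hpx)
    · have e2 : x = z := off_diag hQ hx (mem_RS.2 ⟨y, h1, hyz⟩)
      exact fin hxy (e2 ▸ hyz)

theorem hall_rows (hP : P = Phi A Q) (x : V) (X' : Finset V)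
    (hX : X' ⊆ univ.filter (fun y => y ∉ P x ∧ x ∉ RS A (KK A Q y))) :
    X'.card ≤ (((RS A (P x))ᶜ).filter (fun z => ∃ y ∈ X', y = z ∨ A y z)).card := by
  have h1 : f A (P x) ≤ f A (P x ∪ X') :=
    P_min hP x (mem_union_left _ (self_mem hP x)) fun y hy => by
      rcases mem_union.1 hy with h | h
      · exact Or.inl h
      · exact Or.inr (mem_filter.1 (hX h)).2.2
  have h2 : (P x ∪ X').card = (P x).card + X'.card :=
    card_union_of_disjoint (disjoint_right.2 fun y hy => (mem_filter.1 (hX hy)).2.1)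
  have h3 : (RS A (P x ∪ X')).card ≤ (RS A (P x)).card +
      (((RS A (P x))ᶜ).filter (fun z => ∃ y ∈ X', y = z ∨ A y z)).card := by
    refine le_trans (card_le_card ?_) (card_union_le _ _)
    intro z hz
    rw [RS_union] at hz
    by_cases h : z ∈ RS A (P x)
    · exact mem_union_left _ h
    · exact mem_union_right _ (mem_filter.2 ⟨mem_compl.2 h,
        mem_RS.1 ((mem_union.1 hz).resolve_left h)⟩)
  unfold f at h1
  omega

/-- generic matrix for the rows -/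
theorem exists_alpha (hP : P = Phi A Q) :
    ∃ α : V → V → ℝ, (∀ y z, α y z ≠ 0 → y = z ∨ A y z) ∧
      ∀ x, ∀ u : V → ℝ, (∀ y, ¬ (y ∉ P x ∧ x ∉ RS A (KK A Q y)) → u y = 0) →
        (∀ z, z ∉ RS A (P x) → x ∉ RS A (Q z) → ∑ y, u y * α y z = 0) → u = 0 := by
  obtain ⟨α, h1, h2⟩ := exists_generic (fun y z => y = z ∨ A y z)
    (fun x => univ.filter (fun y => y ∉ P x ∧ x ∉ RS A (KK A Q y)))
    (fun x => (RS A (P x))ᶜ) (fun x X' hX => by convert hall_rows hP x X' hX)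
  refine ⟨α, h1, fun x u hu hz => h2 x u (fun y hy => hu y (by simpa using hy)) fun z hz' => ?_⟩
  by_cases h : x ∈ RS A (Q z)
  · refine sum_eq_zero fun y _ => ?_
    by_contra hne
    obtain ⟨a1, a2⟩ := mul_ne_zero_iff.1 hne
    have a3 : y ∉ P x ∧ x ∉ RS A (KK A Q y) := by_contra fun h' => a1 (hu y h')
    obtain ⟨w, hw, hwx⟩ := mem_RS.1 h
    exact a3.2 (mem_RS.2 ⟨w, mem_KK.2 (Or.inr ⟨z, h1 y z a2, hw⟩), hwx⟩)
  · exact hz z (mem_compl.1 hz') h

theorem card_cells (hP : P = Phi A Q) (hQ : Q = Phi A P) :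
    (univ.filter (fun c : V × V => c.2 ∉ P c.1 ∧ c.1 ∉ RS A (KK A Q c.2))).card +
    (univ.filter (fun c : V × V => c.1 ∉ Q c.2 ∧ c.2 ∉ RS A (KK A P c.1))).card ≤
    (univ.filter (fun c : V × V => c.2 ∉ RS A (P c.1) ∧ c.1 ∉ RS A (Q c.2))).card +
    (univ.filter (fun c : V × V => c.2 ∉ KK A P c.1 ∧ c.1 ∉ KK A Q c.2)).card := by
  obtain ⟨α, a1, a2⟩ := exists_alpha hP
  obtain ⟨β, b1, b2⟩ := exists_alpha hQ
  refine corner_card _ _ _ _ α β ?_ ?_ ?_
  · intro u hu hz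
    ext ⟨x, y⟩
    exact congrFun (a2 x (fun y => u (x, y)) (fun y hy => hu _ (by simpa using hy))
      (fun z h1 h2 => hz (x, z) (by simp [h1, h2]))) y
  · intro v hv hz
    ext ⟨x, y⟩
    exact congrFun (b2 y (fun x => v (x, y)) (fun x hx => hv _ (by simpa using hx))
      (fun z h1 h2 => hz (z, y) (by simp [h1, h2]))) x
  · intro x x' y z h1 h2 h3 h4
    simp only [mem_filter, mem_univ, true_and] at h1 h2 ⊢
    have r1 := a1 y z h3
    have r2 := b1 x x' h4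
    refine ⟨⟨fun h => ?_, fun h => ?_⟩, fun h => h2.2 (mem_RS.2 ⟨y, h, r1⟩),
      fun h => h1.2 (mem_RS.2 ⟨x, h, r2⟩)⟩
    · obtain ⟨w, hw, hwz⟩ := mem_RS.1 h
      exact h2.2 (mem_RS.2 ⟨w, mem_KK.2 (Or.inr ⟨x', r2, hw⟩), hwz⟩)
    · obtain ⟨w, hw, hwz⟩ := mem_RS.1 h
      exact h1.2 (mem_RS.2 ⟨w, mem_KK.2 (Or.inr ⟨z, r1, hw⟩), hwz⟩)

end Fixed

theorem sum_rows (F : V → Finset V) :
    ∑ x, ((F x).card : ℤ) = ∑ c : V × V, if c.2 ∈ F c.1 then 1 else 0 := by
  rw [Fintype.sum_prod_type]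
  refine sum_congr rfl fun x _ => ?_
  simp

theorem sum_cols (F : V → Finset V) :
    ∑ y, ((F y).card : ℤ) = ∑ c : V × V, if c.1 ∈ F c.2 then 1 else 0 := by
  rw [Fintype.sum_prod_type_right]
  refine sum_congr rfl fun x _ => ?_
  simp

theorem card_filter_int (p : V × V → Prop) [DecidablePred p] :
    ((univ.filter p).card : ℤ) = ∑ c : V × V, if p c then 1 else 0 := by
  simp

theorem sum_ineq {A : V → V → Prop} {P Q : V → Finset V} (hanti : ∀ u v, A u v → ¬ A v u)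
    (hP : P = Phi A Q) (hQ : Q = Phi A P) :
    ∑ x, f A (P x) + ∑ y, f A (Q y) ≤ ∑ x, f A (RS A (P x)) + ∑ y, f A (RS A (Q y)) := by
  have h1 : ∑ x, f A (KK A P x) ≤ ∑ x, f A (RS A (P x)) := sum_le_sum fun x _ => f_KK_le hP x
  have h2 : ∑ x, f A (KK A Q x) ≤ ∑ x, f A (RS A (Q x)) := sum_le_sum fun x _ => f_KK_le hQ x
  have h3 := card_cells hP hQ
  have h4 : ∑ x, ((KK A P x).card : ℤ) + ∑ y, ((KK A Q y).card : ℤ) +
      ((univ.filter (fun c : V × V => c.2 ∉ KK A P c.1 ∧ c.1 ∉ KK A Q c.2)).card : ℤ) +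
      ∑ x, ((RS A (P x)).card : ℤ) + ∑ y, ((RS A (Q y)).card : ℤ) +
      ((univ.filter (fun c : V × V => c.2 ∉ RS A (P c.1) ∧ c.1 ∉ RS A (Q c.2))).card : ℤ) ≤
      ∑ x, ((RS A (KK A P x)).card : ℤ) + ∑ y, ((Q y).card : ℤ) +
      ((univ.filter (fun c : V × V => c.1 ∉ Q c.2 ∧ c.2 ∉ RS A (KK A P c.1))).card : ℤ) +
      ∑ y, ((RS A (KK A Q y)).card : ℤ) + ∑ x, ((P x).card : ℤ) +
      ((univ.filter (fun c : V × V => c.2 ∉ P c.1 ∧ c.1 ∉ RS A (KK A Q c.2))).card : ℤ) := by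
    rw [sum_rows (KK A P), sum_cols (KK A Q), sum_rows (fun x => RS A (P x)),
      sum_cols (fun x => RS A (Q x)), sum_rows (fun x => RS A (KK A P x)), sum_cols Q,
      sum_cols (fun x => RS A (KK A Q x)), sum_rows P]
    simp only [card_filter_int, ← sum_add_distrib]
    refine sum_le_sum ?_
    rintro ⟨x, y⟩ _
    have s1 : y ∈ RS A (P x) → y ∈ KK A P x := fun h => mem_union_left _ h
    have s2 : x ∈ RS A (Q y) → x ∈ KK A Q y := fun h => mem_union_left _ h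
    by_cases hxy : x = y
    · subst hxy
      have t1 := self_mem hP x
      have t2 := self_mem hQ x
      have t3 := subset_RS A _ t1
      have t4 := subset_RS A _ t2
      have t5 := s1 t3
      have t6 := s2 t4
      simp [t1, t2, t3, t4, t5, t6, subset_RS A _ t5, subset_RS A _ t6]
    · have t : ¬ (y ∈ KK A P x ∧ x ∈ KK A Q y) := fun h => hxy (KK_inter hanti hP hQ h.1 h.2)
      dsimp only
      have u1 : ((if y ∈ KK A P x then 1 else 0) + (if x ∈ KK A Q y then 1 else 0) +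
          (if y ∉ KK A P x ∧ x ∉ KK A Q y then 1 else 0) : ℤ) ≤ 1 := by
        by_cases a1 : y ∈ KK A P x <;> by_cases a2 : x ∈ KK A Q y
        · exact absurd ⟨a1, a2⟩ t
        all_goals simp [a1, a2]
      have u2 : ((if y ∈ RS A (P x) then 1 else 0) + (if x ∈ RS A (Q y) then 1 else 0) +
          (if y ∉ RS A (P x) ∧ x ∉ RS A (Q y) then 1 else 0) : ℤ) ≤ 1 := by
        by_cases a1 : y ∈ RS A (P x) <;> by_cases a2 : x ∈ RS A (Q y)
        · exact absurd ⟨s1 a1, s2 a2⟩ t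
        all_goals simp [a1, a2]
      have u3 : (1 : ℤ) ≤ (if y ∈ RS A (KK A P x) then 1 else 0) + (if x ∈ Q y then 1 else 0) +
          (if x ∉ Q y ∧ y ∉ RS A (KK A P x) then 1 else 0) := by
        by_cases a1 : y ∈ RS A (KK A P x) <;> by_cases a2 : x ∈ Q y <;> simp [a1, a2]
      have u4 : (1 : ℤ) ≤ (if x ∈ RS A (KK A Q y) then 1 else 0) + (if y ∈ P x then 1 else 0) +
          (if y ∉ P x ∧ x ∉ RS A (KK A Q y) then 1 else 0) := by
        by_cases a1 : x ∈ RS A (KK A Q y) <;> by_cases a2 : y ∈ P x <;> simp [a1, a2]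
      linarith
  simp only [f, sum_sub_distrib] at h1 h2 ⊢
  omega

theorem not_bad_of_min [Nonempty V] {A : V → V → Prop} (hanti : ∀ u v, A u v → ¬ A v u)
    (hmin : ∀ A' : V → V → Prop, (∀ u v, A' u v → A u v) → (∃ u v, A u v ∧ ¬ A' u v) → ¬ Bad A') :
    ¬ Bad A := by
  intro hbad
  obtain ⟨P, Q, hP, hQ⟩ := exists_fixed A
  have h := sum_ineq hanti hP hQ
  have l1 : ∑ x, f A (RS A (P x)) ≤ ∑ x, f A (P x) := sum_le_sum fun x _ => lemmaD_le hbad hmin _
  have l2 : ∑ x, f A (RS A (Q x)) ≤ ∑ x, f A (Q x) := sum_le_sum fun x _ => lemmaD_le hbad hmin _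
  have c1 : ∀ x, P x = RS A (P x) := by
    intro x
    by_contra hne
    have : ∑ x, f A (RS A (P x)) < ∑ x, f A (P x) :=
      sum_lt_sum (fun x _ => lemmaD_le hbad hmin _) ⟨x, mem_univ _, lemmaD hbad hmin hne⟩
    omega
  have c2 : ∀ x, Q x = RS A (Q x) := by
    intro x
    by_contra hne
    have : ∑ x, f A (RS A (Q x)) < ∑ x, f A (Q x) :=
      sum_lt_sum (fun x _ => lemmaD_le hbad hmin _) ⟨x, mem_univ _, lemmaD hbad hmin hne⟩
    omega
  obtain ⟨C, hC, hCmin⟩ := exists_min_image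
    (univ.filter (fun C : Finset V => C.Nonempty ∧ RS A C ⊆ C)) card
    ⟨univ, by simp⟩
  simp only [mem_filter, mem_univ, true_and] at hC hCmin
  have hsub : ∀ S : Finset V, S = RS A S → ∀ x ∈ C, x ∈ S → C ⊆ S := by
    intro S hS x hx hxS
    have h1 := hCmin (C ∩ S) ⟨⟨x, mem_inter.2 ⟨hx, hxS⟩⟩, subset_inter
      ((RS_mono A inter_subset_left).trans hC.2)
      ((RS_mono A inter_subset_right).trans hS.ge)⟩
    rw [← eq_of_subset_of_card_le inter_subset_left h1]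
    exact inter_subset_right
  obtain ⟨x, hx⟩ := hC.1
  obtain ⟨y, hy⟩ : (N1 A x).Nonempty := card_pos.1 (lt_of_le_of_lt (Nat.zero_le _) (hbad x))
  have hxy : A x y := (mem_filter.1 hy).2
  have hyC : y ∈ C := hC.2 (mem_RS.2 ⟨x, hx, Or.inr hxy⟩)
  have e : x = y := KK_inter hanti hP hQ
    (mem_union_left _ (subset_RS A _ (hsub _ (c1 x) x hx (self_mem hP x) hyC)))
    (mem_union_left _ (subset_RS A _ (hsub _ (c2 y) y hyC (self_mem hQ y) hx)))
  subst e
  exact hanti _ _ hxy hxy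

theorem not_bad [Nonempty V] (n : ℕ) : ∀ A : V → V → Prop,
    (univ.filter (fun c : V × V => A c.1 c.2)).card = n → (∀ u v, A u v → ¬ A v u) → ¬ Bad A := by
  induction n using Nat.strong_induction_on with
  | _ n ih =>
    intro A hn hanti
    refine not_bad_of_min hanti fun A' h1 ⟨u, v, h2, h3⟩ => ?_
    refine ih _ ?_ A' rfl (fun u v h h' => hanti u v (h1 _ _ h) (h1 _ _ h'))
    rw [← hn]
    refine card_lt_card ⟨fun c hc => ?_, fun h => ?_⟩
    · simp only [mem_filter, mem_univ, true_and] at hc ⊢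
      exact h1 _ _ hc
    · have := h (show (u, v) ∈ _ by simpa using h2)
      simp only [mem_filter, mem_univ, true_and] at this
      exact h3 this

end Crest.Agent.R57
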